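import Vale.Agent.P371.Bdl.B1

/-!
Hilbert-Schmidt norm of matrices, commutator estimates, and a quantitative form of the
Golden-Thompson and Gibbs inequalities (constants independent of the dimension).
-/

namespace Vale.Agent.P371EP

open Matrix Filter Topology Set NormedSpace
open scoped ComplexOrder MatrixOrder Matrix.Norms.L2Operator
open Vale.Agent.P371 Vale.Agent.P371.GII

set_option linter.unusedSectionVars false

variable {n : Type*} [Fintype n] [DecidableEq n]

/-- square of the Hilbert-Schmidt norm -/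
noncomputable def hs (M : Matrix n n ℂ) : ℝ := (Mᴴ * M).trace.re

theorem hs_eq_sum (M : Matrix n n ℂ) : hs M = ∑ i, ∑ j, ‖M i j‖ ^ 2 := by
  rw [Finset.sum_comm]
  simp only [hs, Matrix.trace, Matrix.diag_apply, Matrix.mul_apply, Complex.re_sum,
    Matrix.conjTranspose_apply]
  refine Finset.sum_congr rfl fun i _ => Finset.sum_congr rfl fun j _ => ?_
  rw [Complex.star_def, ← Complex.normSq_eq_conj_mul_self, Complex.ofReal_re,
    Complex.normSq_eq_norm_sq]

theorem hs_nonneg (M : Matrix n n ℂ) : 0 ≤ hs M := by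
  rw [hs_eq_sum]
  positivity

theorem hs_neg (M : Matrix n n ℂ) : hs (-M) = hs M := by
  simp only [hs, conjTranspose_neg, neg_mul_neg]

theorem hs_sub_comm (A B : Matrix n n ℂ) : hs (A - B) = hs (B - A) := by
  rw [← hs_neg, neg_sub]

theorem norm_sq_le_hs (M : Matrix n n ℂ) : ‖M‖ ^ 2 ≤ hs M := by
  have h := G.norm_le_trace (posSemidef_conjTranspose_mul_self M)
  rw [l2_opNorm_conjTranspose_mul_self] at h
  rw [pow_two]
  exact h

theorem norm_le_sqrt_hs (M : Matrix n n ℂ) : ‖M‖ ≤ √(hs M) :=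
  Real.le_sqrt_of_sq_le (norm_sq_le_hs M)

theorem hs_conj (U : Matrix.unitaryGroup n ℂ) (M : Matrix n n ℂ) :
    hs (star (U : Matrix n n ℂ) * M * (U : Matrix n n ℂ)) = hs M := by
  have h1 : (U : Matrix n n ℂ) * star (U : Matrix n n ℂ) = 1 := U.2.2
  unfold hs
  congr 1
  rw [conjTranspose_mul, conjTranspose_mul, ← star_eq_conjTranspose (star (U : Matrix n n ℂ)),
    star_star, ← star_eq_conjTranspose (U : Matrix n n ℂ)]
  have e : star (U : Matrix n n ℂ) * (Mᴴ * (U : Matrix n n ℂ)) *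
      (star (U : Matrix n n ℂ) * M * (U : Matrix n n ℂ))
      = star (U : Matrix n n ℂ) * (Mᴴ * ((U : Matrix n n ℂ) * star (U : Matrix n n ℂ)) * M *
        (U : Matrix n n ℂ)) := by simp only [Matrix.mul_assoc]
  rw [e, h1, Matrix.mul_one, Matrix.trace_mul_comm, Matrix.mul_assoc, h1, Matrix.mul_one]

theorem hs_comm_eq {X : Matrix n n ℂ} (hX : X.IsHermitian) (f : ℝ → ℝ) (M : Matrix n n ℂ) :
    hs (cfc f X * M - M * cfc f X) = ∑ i, ∑ j, (f (hX.eigenvalues i) - f (hX.eigenvalues j)) ^ 2 *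
      ‖(star (hX.eigenvectorUnitary : Matrix n n ℂ) * M *
        (hX.eigenvectorUnitary : Matrix n n ℂ)) i j‖ ^ 2 := by
  rw [← hs_conj hX.eigenvectorUnitary, cfc_eq_mul hX]
  set U := (hX.eigenvectorUnitary : Matrix n n ℂ) with hU
  have h1 : star U * U = 1 := hX.eigenvectorUnitary.2.1
  set D : Matrix n n ℂ := diagonal (fun i => ((f (hX.eigenvalues i) : ℝ) : ℂ)) with hD
  have e : star U * (U * D * star U * M - M * (U * D * star U)) * U
      = D * (star U * M * U) - (star U * M * U) * D := by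
    rw [Matrix.mul_sub, Matrix.sub_mul]
    congr 1
    · calc star U * (U * D * star U * M) * U = (star U * U) * D * (star U * M * U) := by
            simp only [Matrix.mul_assoc]
        _ = _ := by rw [h1, Matrix.one_mul]
    · calc star U * (M * (U * D * star U)) * U = star U * M * U * D * (star U * U) := by
            simp only [Matrix.mul_assoc]
        _ = _ := by rw [h1, Matrix.mul_one]
  rw [e, hs_eq_sum]
  refine Finset.sum_congr rfl fun i _ => Finset.sum_congr rfl fun j _ => ?_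
  rw [Matrix.sub_apply, hD, Matrix.diagonal_mul, Matrix.mul_diagonal, mul_comm _ ((f _ : ℝ) : ℂ),
    ← sub_mul, norm_mul, mul_pow, ← Complex.ofReal_sub, Complex.norm_real, Real.norm_eq_abs,
    sq_abs]

/-- Lipschitz functions are Lipschitz for commutators in the Hilbert-Schmidt norm. -/
theorem hs_comm_le {X : Matrix n n ℂ} (hX : X.IsHermitian) (f g : ℝ → ℝ) {L : ℝ}
    (h : ∀ i j, |f (hX.eigenvalues i) - f (hX.eigenvalues j)|
      ≤ L * |g (hX.eigenvalues i) - g (hX.eigenvalues j)|) (M : Matrix n n ℂ) :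
    hs (cfc f X * M - M * cfc f X) ≤ L ^ 2 * hs (cfc g X * M - M * cfc g X) := by
  rw [hs_comm_eq hX, hs_comm_eq hX, Finset.mul_sum]
  refine Finset.sum_le_sum fun i _ => ?_
  rw [Finset.mul_sum]
  refine Finset.sum_le_sum fun j _ => ?_
  rw [← mul_assoc]
  refine mul_le_mul_of_nonneg_right ?_ (by positivity)
  have h1 := pow_le_pow_left₀ (abs_nonneg _) (h i j) 2
  rwa [mul_pow, sq_abs, sq_abs] at h1

theorem abs_eigenvalues_le {X : Matrix n n ℂ} (hX : X.IsHermitian) (i : n) :
    |hX.eigenvalues i| ≤ ‖X‖ := by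
  have h1 := G.abs_qf_le X (⇑(hX.eigenvectorBasis i))
  rw [G.qf_eigenvector (hX.mulVec_eigenvectorBasis i), abs_mul,
    abs_of_pos (G.qf_one_pos (G.eigenvectorBasis_ne_zero hX i))] at h1
  exact le_of_mul_le_mul_right h1 (G.qf_one_pos (G.eigenvectorBasis_ne_zero hX i))

theorem norm_cfc_le' {X : Matrix n n ℂ} (hX : X.IsHermitian) (f : ℝ → ℝ) {r : ℝ} (hr : 0 ≤ r)
    (h : ∀ i, |f (hX.eigenvalues i)| ≤ r) : ‖cfc f X‖ ≤ r := by
  apply norm_cfc_le hr
  intro x hx
  rw [hX.spectrum_real_eq_range_eigenvalues] at hx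
  obtain ⟨i, rfl⟩ := hx
  exact h i

theorem smul_isHermitian {X : Matrix n n ℂ} (hX : X.IsHermitian) (s : ℝ) :
    (s • X).IsHermitian := by
  rw [IsHermitian, conjTranspose_smul, hX]; simp

theorem exp_smul_eq_cfc {X : Matrix n n ℂ} (hX : X.IsHermitian) (s : ℝ) :
    exp (s • X) = cfc (fun x => Real.exp (s * x)) X := by
  have e1 : s • X = cfc (fun x : ℝ => s * x) X := by
    rw [cfc_mul_fun (fun _ => s) (fun q => q), cfc_id_fun hX, cfc_const_fun hX, smul_mul_assoc,
      one_mul]
    ext i j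
    simp
  rw [G.exp_eq_cfc (smul_isHermitian hX s), e1, ← cfc_comp_fun hX]

theorem norm_exp_smul_le {X : Matrix n n ℂ} (hX : X.IsHermitian) {s l : ℝ} (hs0 : 0 ≤ s)
    (hl : ‖X‖ ≤ l) : ‖exp (s • X)‖ ≤ Real.exp (s * l) := by
  rw [exp_smul_eq_cfc hX]
  refine norm_cfc_le' hX _ (Real.exp_pos _).le fun i => ?_
  rw [abs_of_pos (Real.exp_pos _)]
  exact Real.exp_le_exp.2 (mul_le_mul_of_nonneg_left
    ((le_abs_self _).trans ((abs_eigenvalues_le hX i).trans hl)) hs0)

theorem abs_exp_sub_le {x y l : ℝ} (hx : x ≤ l) (hy : y ≤ l) :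
    |Real.exp x - Real.exp y| ≤ Real.exp l * |x - y| := by
  have key : ∀ x y : ℝ, y ≤ x → x ≤ l → Real.exp x - Real.exp y ≤ Real.exp l * (x - y) := by
    intro x y hxy hx
    have h1 := Real.add_one_le_exp (y - x)
    have h2 : Real.exp y = Real.exp x * Real.exp (y - x) := by
      rw [← Real.exp_add]; congr 1; ring
    have h3 := Real.exp_le_exp.2 hx
    have h4 := Real.exp_pos x
    have h5 : Real.exp x * (y - x + 1) ≤ Real.exp y := by
      rw [h2]; exact mul_le_mul_of_nonneg_left h1 h4.le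
    have h6 : Real.exp x * (x - y) ≤ Real.exp l * (x - y) :=
      mul_le_mul_of_nonneg_right h3 (by linarith)
    linarith
  rcases le_total y x with h | h
  · rw [abs_of_nonneg (sub_nonneg.2 (Real.exp_le_exp.2 h)), abs_of_nonneg (sub_nonneg.2 h)]
    exact key x y h hx
  · rw [abs_sub_comm, abs_sub_comm x y, abs_of_nonneg (sub_nonneg.2 (Real.exp_le_exp.2 h)),
      abs_of_nonneg (sub_nonneg.2 h)]
    exact key y x h hy

theorem abs_sub_le_exp {x y l : ℝ} (hx : -l ≤ x) (hy : -l ≤ y) :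
    |x - y| ≤ Real.exp l * |Real.exp x - Real.exp y| := by
  have key : ∀ x y : ℝ, y ≤ x → -l ≤ y → x - y ≤ Real.exp l * (Real.exp x - Real.exp y) := by
    intro x y hxy hy
    have h1 := Real.add_one_le_exp (x - y)
    have h2 : Real.exp x = Real.exp y * Real.exp (x - y) := by
      rw [← Real.exp_add]; congr 1; ring
    have h3 : 1 ≤ Real.exp l * Real.exp y := by
      rw [← Real.exp_add]; exact Real.one_le_exp (by linarith)
    have h4 := Real.exp_pos y
    have h5 : Real.exp y * (x - y) ≤ Real.exp x - Real.exp y := by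
      have := mul_le_mul_of_nonneg_left h1 h4.le
      rw [← h2] at this
      linarith
    have h6 := mul_le_mul_of_nonneg_left h5 (Real.exp_pos l).le
    have h7 := mul_le_mul_of_nonneg_right h3 (sub_nonneg.2 hxy)
    nlinarith
  rcases le_total y x with h | h
  · rw [abs_of_nonneg (sub_nonneg.2 (Real.exp_le_exp.2 h)), abs_of_nonneg (sub_nonneg.2 h)]
    exact key x y h hy
  · rw [abs_sub_comm, abs_sub_comm (Real.exp x), abs_of_nonneg (sub_nonneg.2 (Real.exp_le_exp.2 h)),
      abs_of_nonneg (sub_nonneg.2 h)]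
    exact key y x h hx

/-- Duhamel: `e^X e^Y` is close to `e^(X+Y)` when `X` and `Y` almost commute. -/
theorem norm_exp_mul_sub_le {X Y : Matrix n n ℂ} (hX : X.IsHermitian) (hY : Y.IsHermitian)
    {l : ℝ} (hXl : ‖X‖ ≤ l) (hYl : ‖Y‖ ≤ l) :
    ‖exp X * exp Y - exp (X + Y)‖ ≤ Real.exp (4 * l) * √(hs (X * Y - Y * X)) := by
  have hl0 : 0 ≤ l := (norm_nonneg _).trans hXl
  set g : ℝ → Matrix n n ℂ := fun s => exp ((1 - s) • (X + Y)) * exp (s • X) * exp (s • Y) with hg
  have hd : ∀ s : ℝ, HasDerivAt g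
      (exp ((1 - s) • (X + Y)) * (exp (s • X) * Y - Y * exp (s • X)) * exp (s • Y)) s := by
    intro s
    have h1 : HasDerivAt (fun s : ℝ => exp ((1 - s) • (X + Y)))
        ((-1 : ℝ) • (exp ((1 - s) • (X + Y)) * (X + Y))) s := by
      have h0 := hasDerivAt_exp_smul_const (X + Y) (1 - s)
      have h2 : HasDerivAt (fun s : ℝ => 1 - s) (-1) s := by
        simpa using (hasDerivAt_id s).const_sub 1
      exact h0.scomp s h2
    have h2 := hasDerivAt_exp_smul_const' X s
    have h3 := hasDerivAt_exp_smul_const' Y s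
    have h4 := (h1.mul h2).mul h3
    refine h4.congr_deriv ?_
    simp only [neg_smul, one_smul, Pi.mul_apply]
    noncomm_ring
  have hb : ∀ s ∈ Ico (0 : ℝ) 1,
      ‖exp ((1 - s) • (X + Y)) * (exp (s • X) * Y - Y * exp (s • X)) * exp (s • Y)‖
        ≤ Real.exp (4 * l) * √(hs (X * Y - Y * X)) := by
    intro s hs'
    have hs0 := hs'.1
    have hs1 := hs'.2.le
    have b1 : ‖exp ((1 - s) • (X + Y))‖ ≤ Real.exp (2 * l) := by
      refine (norm_exp_smul_le (hX.add hY) (l := 2 * l) (by linarith)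
        ((norm_add_le _ _).trans (by linarith))).trans (Real.exp_le_exp.2 ?_)
      nlinarith
    have b3 : ‖exp (s • Y)‖ ≤ Real.exp l := by
      refine (norm_exp_smul_le hY hs0 hYl).trans (Real.exp_le_exp.2 ?_)
      nlinarith
    have b2 : ‖exp (s • X) * Y - Y * exp (s • X)‖ ≤ Real.exp l * √(hs (X * Y - Y * X)) := by
      refine (norm_le_sqrt_hs _).trans ?_
      have h := hs_comm_le hX (fun x => Real.exp (s * x)) (fun x => x) (L := Real.exp l)
        (fun i j => ?_) Y
      · rw [← exp_smul_eq_cfc hX, cfc_id_fun hX] at h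
        refine (Real.sqrt_le_sqrt h).trans (le_of_eq ?_)
        rw [Real.sqrt_mul (by positivity), Real.sqrt_sq (Real.exp_pos _).le]
      · have hi := abs_le.1 ((abs_eigenvalues_le hX i).trans hXl)
        have hj := abs_le.1 ((abs_eigenvalues_le hX j).trans hXl)
        refine (abs_exp_sub_le (l := l) (by nlinarith [hi.2]) (by nlinarith [hj.2])).trans ?_
        refine mul_le_mul_of_nonneg_left ?_ (Real.exp_pos _).le
        rw [← mul_sub, abs_mul, abs_of_nonneg hs0]
        exact mul_le_of_le_one_left (abs_nonneg _) hs1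
    calc _ ≤ ‖exp ((1 - s) • (X + Y))‖ * ‖exp (s • X) * Y - Y * exp (s • X)‖ * ‖exp (s • Y)‖ :=
          (norm_mul_le _ _).trans (mul_le_mul_of_nonneg_right (norm_mul_le _ _) (norm_nonneg _))
      _ ≤ Real.exp (2 * l) * (Real.exp l * √(hs (X * Y - Y * X))) * Real.exp l := by
          gcongr
      _ = Real.exp (4 * l) * √(hs (X * Y - Y * X)) := by
          have : Real.exp (4 * l) = Real.exp (2 * l) * Real.exp l * Real.exp l := by
            rw [← Real.exp_add, ← Real.exp_add]; congr 1; ring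
          rw [this]; ring
  have h := norm_image_sub_le_of_norm_deriv_le_segment_01' (f := g)
    (fun s _ => (hd s).hasDerivWithinAt) hb
  simpa [hg] using h

end Vale.Agent.P371EP
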