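import Vale.Agent.P371E.Spec

/-!
The columns of the limit of `Ψ r U` are ground states times constant vectors.
-/

namespace Vale.Agent.P371EP

open MeasureTheory Filter Topology Matrix Set
open Vale.Agent.P371 Vale.Agent.P371.G Vale.Agent.P371.PI Vale.Agent.P371E
open scoped ComplexOrder MatrixOrder Matrix.Norms.L2Operator

variable {m N : ℕ}

theorem entry_le (M : Mat m N) (α : Fin m) (i : Fin N) : ‖M α i‖ ≤ ‖M‖ := by
  have h := M.l2_opNorm_mulVec (EuclideanSpace.single i 1)
  have h2 := PiLp.norm_apply_le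
    ((EuclideanSpace.equiv (Fin m) ℂ).symm (M *ᵥ (EuclideanSpace.single i (1 : ℂ)))) α
  have h3 := h2.trans h
  simpa using h3

theorem norm_sq_le_hs' (M : Mat m N) : ‖M‖ ^ 2 ≤ P371E.hs M := by
  have h := G.norm_le_trace (posSemidef_conjTranspose_mul_self M)
  rw [l2_opNorm_conjTranspose_mul_self] at h
  rw [pow_two]
  exact h

theorem norm_le_hs_div (M : Mat m N) {s : ℝ} (hs0 : 0 < s) : ‖M‖ ≤ s + P371E.hs M / s := by
  have h := norm_sq_le_hs' M
  have h1 : s * ‖M‖ ≤ s * (s + P371E.hs M / s) := by
    rw [mul_add, mul_div_cancel₀ _ hs0.ne']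
    nlinarith [sq_nonneg (s - ‖M‖), norm_nonneg M]
  exact le_of_mul_le_mul_left h1 hs0

theorem h1_entry {f f' : Fin N → ℝ → Vec m} (hf : ∀ j, IsH1 (f j) (f' j)) (M : Mat N N)
    (α : Fin m) (i : Fin N) :
    LT.H1 (fun x => (psiM f x * M) α i) (fun x => (psiM f' x * M) α i) := by
  have h : ∀ j, LT.H1 (fun x => f j x α) (fun x => f' j x α) := fun j =>
    (LT.isH1_iff (f := LT.ofE (f j)) (f' := LT.ofE (f' j))).mp (hf j) α
  have hi : ∀ j a b, IntervalIntegrable (fun x => f' j x α) volume a b := by
    intro j a b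
    have h1 : LocallyIntegrable (fun x => f' j x α) volume :=
      (h j).2.1.locallyIntegrable (by norm_num)
    exact (h1.integrableOn_isCompact isCompact_uIcc).intervalIntegrable
  simp only [Matrix.mul_apply, psiM, Matrix.of_apply]
  refine ⟨memLp_finsetSum _ fun j _ => (h j).1.mul_const _,
    memLp_finsetSum _ fun j _ => (h j).2.1.mul_const _, fun a b => ?_⟩
  rw [intervalIntegral.integral_finsetSum fun j _ => (hi j a b).mul_const _,
    ← Finset.sum_sub_distrib]
  refine Finset.sum_congr rfl fun j _ => ?_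
  rw [intervalIntegral.integral_mul_const, ← (h j).2.2 a b]
  ring

theorem h1_ii {u u' : ℝ → ℂ} (h : LT.H1 u u') (a b : ℝ) : IntervalIntegrable u' volume a b := by
  have h1 : LocallyIntegrable u' volume := h.2.1.locallyIntegrable (by norm_num)
  exact (h1.integrableOn_isCompact isCompact_uIcc).intervalIntegrable

/-- the limit equation in integral form -/
theorem lim_int {f f' : Fin N → ℝ → Vec m} {r : ℕ → Mat N N} {r0 : Mat N N} (U : Mat N N)
    {F : ℕ → ℝ → Mat N N} {G : ℝ → Mat N N} {ρ σ : ℕ → ℝ} (hf : ∀ j, IsH1 (f j) (f' j))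
    (hr : Tendsto r atTop (𝓝 r0)) (hG : Continuous G) (hρ : Tendsto ρ atTop atTop)
    (hσ : Tendsto σ atTop (𝓝 0)) (hFc : ∀ n, ContinuousOn (F n) (Icc (-ρ n) (ρ n)))
    (hFG : ∀ R : ℝ, TendstoUniformlyOn F G atTop (Icc (-R) R))
    (hi : ∀ n, IntervalIntegrable (fun x => P371E.hs (psiM f' x * r n - psiM f x * r n * F n x))
      volume (-ρ n) (ρ n))
    (hs : ∀ n, ∫ x in (-ρ n)..(ρ n), P371E.hs (psiM f' x * r n - psiM f x * r n * F n x) ≤ σ n)
    (α : Fin m) (i : Fin N) {a b : ℝ} (hab : a ≤ b) :
    (psiM f b * (r0 * U)) α i - (psiM f a * (r0 * U)) α i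
      = ∫ x in a..b, (psiM f x * r0 * G x * U) α i := by
  have hψ := continuous_psiM hf
  set R : ℝ := |a| + |b| with hR
  have hsub : Icc a b ⊆ Icc (-R) R := Icc_subset_Icc
    (by linarith [neg_abs_le a, abs_nonneg b]) (by linarith [le_abs_self b, abs_nonneg a])
  have hev : ∀ᶠ n in atTop, Icc (-R) R ⊆ Icc (-ρ n) (ρ n) := by
    filter_upwards [hρ.eventually_ge_atTop R] with n hn
    exact Icc_subset_Icc (by linarith) hn
  have hq : ∀ n, Icc (-R) R ⊆ Icc (-ρ n) (ρ n) →
      ContinuousOn (fun x => (psiM f x * r n * F n x * U) α i) (Icc a b) := by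
    intro n hn
    have h1 : ContinuousOn (fun x => psiM f x * r n * F n x * U) (Icc a b) :=
      contOn_mul (contOn_mul (contOn_mul hψ.continuousOn continuousOn_const)
        ((hFc n).mono (hsub.trans hn))) continuousOn_const
    exact ((continuous_apply_apply α i).comp_continuousOn h1)
  have l1 : ∀ x, Tendsto (fun n => (psiM f x * (r n * U)) α i) atTop
      (𝓝 ((psiM f x * (r0 * U)) α i)) := by
    intro x
    have hc : Continuous fun s : Mat N N => (psiM f x * (s * U)) α i :=
      (continuous_apply_apply α i).comp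
        (continuous_const.matrix_mul (continuous_id.matrix_mul continuous_const))
    exact (hc.tendsto _).comp hr
  have l2 : Tendsto (fun n => ∫ x in a..b, (psiM f x * r n * F n x * U) α i) atTop
      (𝓝 (∫ x in a..b, (psiM f x * r0 * G x * U) α i)) := by
    refine intervalIntegral.tendsto_integral_filter_of_dominated_convergence
      (fun x => ‖psiM f x‖ * (‖r0‖ + 1) * (‖G x‖ + 1) * ‖U‖) ?_ ?_ ?_ ?_
    · filter_upwards [hev] with n hn
      rw [uIoc_of_le hab]
      exact ((hq n hn).mono Ioc_subset_Icc_self).aestronglyMeasurable measurableSet_Ioc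
    · have e1 : ∀ᶠ n in atTop, ‖r n‖ ≤ ‖r0‖ + 1 :=
        hr.norm.eventually (eventually_le_nhds (by linarith))
      have e2 := Metric.tendstoUniformlyOn_iff.1 (hFG R) 1 one_pos
      filter_upwards [e1, e2] with n h1 h2
      refine Eventually.of_forall fun x hx => ?_
      rw [uIoc_of_le hab] at hx
      have h3 := h2 x (hsub (Ioc_subset_Icc_self hx))
      rw [dist_eq_norm] at h3
      have h4 : ‖F n x‖ ≤ ‖G x‖ + 1 := by
        have := norm_sub_le (G x) (G x - F n x)
        rw [sub_sub_cancel] at this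
        linarith
      refine (entry_le _ α i).trans ((l2_opNorm_mul _ _).trans ?_)
      refine mul_le_mul_of_nonneg_right ((l2_opNorm_mul _ _).trans ?_) (norm_nonneg _)
      refine mul_le_mul ((l2_opNorm_mul _ _).trans ?_) h4 (norm_nonneg _) (by positivity)
      exact mul_le_mul_of_nonneg_left h1 (norm_nonneg _)
    · exact (((hψ.norm.mul continuous_const).mul (hG.norm.add continuous_const)).mul
        continuous_const).intervalIntegrable _ _
    · refine Eventually.of_forall fun x hx => ?_
      rw [uIoc_of_le hab] at hx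
      have h1 := (hFG R).tendsto_at (hsub (Ioc_subset_Icc_self hx))
      have hc : Continuous fun s : Mat N N × Mat N N => (psiM f x * s.1 * s.2 * U) α i :=
        (continuous_apply_apply α i).comp (((continuous_const.matrix_mul continuous_fst).matrix_mul
          continuous_snd).matrix_mul continuous_const)
      have h2 := (hc.tendsto (r0, G x)).comp (hr.prodMk_nhds h1)
      simpa only [Function.comp_def] using h2
  have l3 := (((l1 b).sub (l1 a)).sub l2).norm
  have key : ∀ s : ℝ, 0 < s → ‖(psiM f b * (r0 * U)) α i - (psiM f a * (r0 * U)) α i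
      - ∫ x in a..b, (psiM f x * r0 * G x * U) α i‖ ≤ (s * (b - a) + 0 / s) * ‖U‖ := by
    intro s hs0
    refine le_of_tendsto_of_tendsto l3
      (((hσ.div_const s).const_add (s * (b - a))).mul_const ‖U‖) ?_
    filter_upwards [hev] with n hn
    have hH := h1_entry hf (r n * U) α i
    have hqi : IntervalIntegrable (fun x => (psiM f x * r n * F n x * U) α i) volume a b := by
      apply ContinuousOn.intervalIntegrable
      rw [uIcc_of_le hab]
      exact hq n hn
    have ha' := hn (hsub (left_mem_Icc.2 hab))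
    have hb' := hn (hsub (right_mem_Icc.2 hab))
    have hi' : IntervalIntegrable
        (fun x => P371E.hs (psiM f' x * r n - psiM f x * r n * F n x)) volume a b :=
      (hi n).mono_set (by
        rw [uIcc_of_le hab, uIcc_of_le (ha'.1.trans ha'.2)]
        exact hsub.trans hn)
    show ‖_ - _ - _‖ ≤ _
    rw [hH.2.2 a b, ← intervalIntegral.integral_sub (h1_ii hH a b) hqi]
    refine (intervalIntegral.norm_integral_le_of_norm_le hab
      (g := fun x => (s + P371E.hs (psiM f' x * r n - psiM f x * r n * F n x) / s) * ‖U‖)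
      (Eventually.of_forall fun x _ => ?_)
      ((intervalIntegrable_const.add (hi'.div_const s)).mul_const _)).trans ?_
    · have e : (psiM f' x * (r n * U)) α i - (psiM f x * r n * F n x * U) α i
          = ((psiM f' x * r n - psiM f x * r n * F n x) * U) α i := by
        rw [Matrix.sub_mul, Matrix.sub_apply, Matrix.mul_assoc (psiM f' x)]
      rw [e]
      refine (entry_le _ α i).trans ((l2_opNorm_mul _ _).trans ?_)
      exact mul_le_mul_of_nonneg_right (norm_le_hs_div _ hs0) (norm_nonneg _)
    · rw [intervalIntegral.integral_mul_const,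
        intervalIntegral.integral_add intervalIntegrable_const (hi'.div_const s),
        intervalIntegral.integral_const, intervalIntegral.integral_div, smul_eq_mul,
        mul_comm (b - a)]
      refine mul_le_mul_of_nonneg_right (add_le_add le_rfl ?_) (norm_nonneg _)
      refine div_le_div_of_nonneg_right (le_trans ?_ (hs n)) hs0.le
      exact intervalIntegral.integral_mono_interval ha'.1 hab hb'.2
        (Eventually.of_forall fun x => (sq_nonneg _).trans (norm_sq_le_hs' _)) (hi n)
  rw [← sub_eq_zero, ← norm_le_zero_iff]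
  have hc : Tendsto (fun s : ℝ => (s * (b - a)) * ‖U‖) (𝓝[>] 0) (𝓝 ((0 * (b - a)) * ‖U‖)) :=
    Tendsto.mono_left (Continuous.tendsto (by fun_prop) 0) nhdsWithin_le_nhds
  rw [zero_mul, zero_mul] at hc
  refine ge_of_tendsto hc ?_
  filter_upwards [self_mem_nhdsWithin] with s hs0
  simpa only [zero_div, add_zero] using key s hs0

theorem solve {p : ℝ → ℂ} {g s : ℝ → ℝ} (hp : Continuous p) (hg : Continuous g)
    (h : ∀ a b, a ≤ b → p b - p a = ∫ x in a..b, p x * (g x : ℂ)) (hs0 : ∀ x, 0 < s x)
    (hs : ∀ x, HasDerivAt s (g x * s x) x) : ∃ c : ℂ, ∀ x, p x = c * (s x : ℂ) := by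
  have hc : Continuous fun x => p x * (g x : ℂ) := hp.mul (Complex.continuous_ofReal.comp hg)
  have h1 : ∀ x, HasDerivAt p (p x * (g x : ℂ)) x := by
    intro x
    have e : p = fun y => p 0 + ∫ z in (0 : ℝ)..y, p z * (g z : ℂ) := by
      funext y
      rcases le_total 0 y with hy | hy
      · rw [← h 0 y hy]; ring
      · rw [intervalIntegral.integral_symm, ← h y 0 hy]; ring
    have h2 := ((hc.integral_hasStrictDerivAt 0 x).hasDerivAt).const_add (p 0)
    rw [← e] at h2
    exact h2
  have h2 : ∀ x, HasDerivAt (fun y => p y / (s y : ℂ)) 0 x := by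
    intro x
    have hne : (s x : ℂ) ≠ 0 := by exact_mod_cast (hs0 x).ne'
    refine ((h1 x).div (hs x).ofReal_comp hne).congr_deriv ?_
    push_cast
    ring
  refine ⟨p 0 / (s 0 : ℂ), fun x => ?_⟩
  have h3 := is_const_of_deriv_eq_zero (fun y => (h2 y).differentiableAt)
    (fun y => (h2 y).deriv) x 0
  have hne : (s x : ℂ) ≠ 0 := by exact_mod_cast (hs0 x).ne'
  rw [← h3]
  field_simp

theorem exp_not_L2 {p : ℝ → ℂ} (hp : MemLp p 2 volume) {c : ℂ} {k : ℝ}
    (h : ∀ x, p x = c * (Real.exp (k * x) : ℂ)) : c = 0 := by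
  have hi : Integrable (fun x => ‖p x‖ ^ 2) volume := hp.integrable_norm_pow (by norm_num)
  have key : ∀ S : Set ℝ, MeasurableSet S → volume S = ⊤ → (∀ x ∈ S, 0 ≤ k * x) → c = 0 := by
    intro S hS hv hk
    have h1 : IntegrableOn (fun _ : ℝ => ‖c‖ ^ 2) S volume := by
      refine Integrable.mono' hi.integrableOn aestronglyMeasurable_const ?_
      refine (ae_restrict_iff' hS).2 (Eventually.of_forall fun x hx => ?_)
      rw [Real.norm_of_nonneg (by positivity), h x, norm_mul, Complex.norm_real,
        Real.norm_of_nonneg (Real.exp_pos _).le]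
      exact pow_le_pow_left₀ (norm_nonneg _)
        (le_mul_of_one_le_right (norm_nonneg _) (Real.one_le_exp (hk x hx))) 2
    rcases (integrableOn_const_iff (by finiteness)).1 h1 with h2 | h2
    · simpa using h2
    · rw [hv] at h2
      exact absurd h2 (lt_irrefl _)
  rcases le_total 0 k with hk | hk
  · exact key (Ioi 0) measurableSet_Ioi Real.volume_Ioi fun x hx => mul_nonneg hk (le_of_lt hx)
  · exact key (Iio 0) measurableSet_Iio Real.volume_Iio fun x hx =>
      mul_nonneg_of_nonpos_of_nonpos hk (le_of_lt hx)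

theorem col_ne {f f' : Fin N → ℝ → Vec m} (hf : ∀ j, IsH1 (f j) (f' j)) (ho : Orth f)
    {M : Mat N N} (hM : IsUnit M) (i : Fin N) (h : ∀ x α, (psiM f x * M) α i = 0) : False := by
  have h1 : ∀ l, M l i = 0 := by
    intro l
    have e : ∀ x, ∑ j, (inner ℂ (f l x) (f j x) : ℂ) * M j i = 0 := by
      intro x
      have h2 : ((psiM f x)ᴴ * (psiM f x * M)) l i = 0 := by
        rw [Matrix.mul_apply]
        exact Finset.sum_eq_zero fun α _ => by rw [h x α, mul_zero]
      rw [← Matrix.mul_assoc, psiM_gram, Matrix.mul_apply] at h2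
      exact h2
    have h3 : ∫ x, ∑ j, (inner ℂ (f l x) (f j x) : ℂ) * M j i = M l i := by
      rw [integral_finsetSum _ fun j _ =>
        (integrable_inner_of_memLp_self (hf l).memLp (hf j).memLp).mul_const _]
      simp only [integral_mul_const, ho l]
      simp
    rw [← h3]
    simp only [e, integral_zero]
  obtain ⟨u, rfl⟩ := hM
  have h2 : ((↑u⁻¹ : Mat N N) * (u : Mat N N)) i i = 0 := by
    rw [Matrix.mul_apply]
    exact Finset.sum_eq_zero fun l _ => by rw [h1 l, mul_zero]
  rw [Units.inv_mul, Matrix.one_apply_eq] at h2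
  exact one_ne_zero h2

theorem continuous_gS (ν k c : ℝ) : Continuous (gS ν k c) :=
  (continuous_const.mul ((continuous_tn _).comp (by fun_prop))).neg

theorem hasDerivAt_sS {ν : ℝ} (hν : 0 < ν) (k c x : ℝ) :
    HasDerivAt (sS ν k c) (gS ν k c x * sS ν k c x) x := by
  have h1 : HasDerivAt (fun x : ℝ => k * (x - c)) k x := by
    simpa using ((hasDerivAt_id x).sub_const c).const_mul k
  have h := (hasDerivAt_psi (q := 1 / ν) (by positivity) (k * (x - c))).comp x h1
  refine h.congr_deriv ?_
  unfold gS sS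
  ring

theorem col : COL := by
  intro ν m N f f' r r0 U F k g ρ σ hν hf ho hr hr0 hU hT hρ hσ hFc hFG hi hs
  have hg : ∀ i, Continuous (g i) := by
    intro i
    rcases hT i with h | h | ⟨_, c, h⟩ <;> rw [h]
    · exact continuous_const
    · exact continuous_const
    · exact continuous_gS _ _ _
  have hG : Continuous fun x => U * dg (fun i => g i x) * Uᴴ := by
    refine (continuous_const.matrix_mul ?_).matrix_mul continuous_const
    exact Continuous.matrix_diagonal (continuous_pi fun i => Complex.continuous_ofReal.comp (hg i))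
  have hM : IsUnit (r0 * U) := hr0.mul (IsUnit.of_mul_eq_one Uᴴ (mul_eq_one_comm.1 hU))
  have hp : ∀ α i, Continuous fun x => (psiM f x * (r0 * U)) α i := fun α i =>
    (continuous_apply_apply α i).comp ((continuous_psiM hf).matrix_mul continuous_const)
  have hint : ∀ α i a b, a ≤ b → (psiM f b * (r0 * U)) α i - (psiM f a * (r0 * U)) α i
      = ∫ x in a..b, (psiM f x * (r0 * U)) α i * (g i x : ℂ) := by
    intro α i a b hab
    rw [lim_int U hf hr hG hρ hσ hFc hFG hi hs α i hab]
    refine intervalIntegral.integral_congr fun x _ => ?_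
    have e : psiM f x * r0 * (U * dg (fun i => g i x) * Uᴴ) * U
        = psiM f x * (r0 * U) * dg (fun i => g i x) * (Uᴴ * U) := by
      simp only [Matrix.mul_assoc]
    show (psiM f x * r0 * (U * dg (fun i => g i x) * Uᴴ) * U) α i = _
    rw [e, hU, Matrix.mul_one, dg, Matrix.mul_diagonal]
  have hexp : ∀ i (κ : ℝ), g i = (fun _ => κ) → False := by
    intro i κ h
    refine col_ne hf ho hM i fun x α => ?_
    obtain ⟨c, hc⟩ := solve (s := fun x => Real.exp (κ * x)) (hp α i) (hg i) (hint α i)
      (fun x => Real.exp_pos _) (fun x => by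
        have h1 : HasDerivAt (fun x : ℝ => κ * x) κ x := by
          simpa using (hasDerivAt_id x).const_mul κ
        refine h1.exp.congr_deriv ?_
        rw [h, mul_comm])
    rw [hc x, exp_not_L2 (h1_entry hf (r0 * U) α i).1 hc, zero_mul]
  have hsol : ∀ i, ∃ c, 0 < k i ∧ g i = gS ν (k i) c := by
    intro i
    rcases hT i with h | h | ⟨h0, c, h⟩
    · exact (hexp i _ h).elim
    · exact (hexp i _ h).elim
    · exact ⟨c, h0, h⟩
  choose c hc using hsol
  have hC : ∀ α i, ∃ C : ℂ, ∀ x, (psiM f x * (r0 * U)) α i = C * (sS ν (k i) (c i) x : ℂ) := by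
    intro α i
    refine solve (hp α i) (hg i) (hint α i) (fun x => psi_pos _ _) fun x => ?_
    rw [(hc i).2]
    exact hasDerivAt_sS hν _ _ _
  choose C hC using hC
  refine ⟨c, Matrix.of C, hc, fun x => ?_⟩
  ext α i
  rw [Matrix.mul_assoc, hC, dg, Matrix.mul_diagonal, Matrix.of_apply]

end Vale.Agent.P371EP
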