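import Vale.Agent.P371EP.GT
import Vale.Agent.P371E.Spec

/-!
The pointwise lower bound of the deficit, uniform in the dimension.
-/

namespace Vale.Agent.P371EP

open Matrix Filter Topology Set NormedSpace
open scoped ComplexOrder MatrixOrder Matrix.Norms.L2Operator
open Vale.Agent.P371 Vale.Agent.P371.GII

theorem norm_log_le' {N : ℕ} {A : Matrix (Fin N) (Fin N) ℂ} (hA : A.IsHermitian) {c C : ℝ}
    (hc : 0 < c) (h1 : ∀ x ∈ spectrum ℝ A, c ≤ x) (h2 : ‖A‖ ≤ C) :
    ‖cfc Real.log A‖ ≤ |Real.log c| + |Real.log C| := by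
  refine norm_cfc_le' hA _ (by positivity) fun i => ?_
  have a1 := h1 _ (hA.eigenvalues_mem_spectrum_real i)
  have a2 := (le_abs_self _).trans ((abs_eigenvalues_le hA i).trans h2)
  have a3 := Real.log_le_log hc a1
  have a4 := Real.log_le_log (hc.trans_le a1) a2
  rw [abs_le]
  constructor
  · linarith [neg_abs_le (Real.log c), abs_nonneg (Real.log C)]
  · linarith [le_abs_self (Real.log C), abs_nonneg (Real.log c)]

theorem pw : P371E.PW := by
  intro B
  set l : ℝ := |Real.log (G.cb B 1)| + |Real.log (2 * B + 2)| with hl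
  set C1 : ℝ := (2 * Real.exp l + 8 * Real.exp (5 * l)) + 4 * Real.exp l
    + 2 * (|B| + 2) * (4 * Real.exp l) with hC1
  have hC1p : 0 < C1 := by positivity
  refine ⟨C1 + 1, by positivity, ?_⟩
  intro N K F Z t s hK hKB hm hp hZ ht1 ht2 hs0 hs1
  have ht : 0 < t := by linarith
  have hKh := hK.isHermitian
  have hA := posDef_add_Hm hKh ht hp
  have hB := posDef_sub_Hm hKh ht hm
  have hW := posDef_add_smul_one hZ ht
  have hFs := isSelfAdjoint_of hK hp
  have hF : ‖F‖ ≤ B := (G.norm_le_of_sandwich (nonneg_iff_posSemidef.mpr hK) hFs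
    (nonneg_iff_posSemidef.mpr hp) (nonneg_iff_posSemidef.mpr hm)).trans hKB
  have hH : ‖Hm K t‖ ≤ B + 2 := by
    have hB0 : 0 ≤ B := (norm_nonneg _).trans hKB
    refine norm_cfc_le' hKh _ (by positivity) fun i => ?_
    have a1 := hK.eigenvalues_nonneg i
    have a2 := (le_abs_self _).trans ((abs_eigenvalues_le hKh i).trans hKB)
    rw [abs_of_nonneg (Real.sqrt_nonneg _), Real.sqrt_le_left (by linarith)]
    nlinarith
  have hc : 0 < G.cb B 1 := G.cb_pos one_pos
  have lA : ‖cfc Real.log (Hm K t + F)‖ ≤ l :=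
    norm_log_le' hA.isHermitian hc (fun x hx => (G.cb_mono ht1).trans
      (G.spectrum_add (nonneg_iff_posSemidef.mpr hK) hFs (nonneg_iff_posSemidef.mpr hp) hKB ht.le
        x hx)) ((norm_add_le _ _).trans (by linarith))
  have lB : ‖cfc Real.log (Hm K t - F)‖ ≤ l :=
    norm_log_le' hB.isHermitian hc (fun x hx => (G.cb_mono ht1).trans
      (G.spectrum_sub (nonneg_iff_posSemidef.mpr hK) hFs (nonneg_iff_posSemidef.mpr hm) hKB ht.le
        x hx)) ((norm_sub_le _ _).trans (by linarith))
  have key := gt_stab (d := P371E.dft K F Z t) hW (G.cfc_isHermitian _ _) (G.cfc_isHermitian _ _)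
    lA lB (by
      rw [G.exp_log_eq hA, G.exp_log_eq hB, trace_AB hKh ht.le, P371E.dft, GG_eq hZ ht]
      set W := Z + (t : ℂ) • (1 : Matrix (Fin N) (Fin N) ℂ) with hWdef
      have e1 : W.trace.re = Z.trace.re + t * Fintype.card (Fin N) := by
        rw [hWdef, Matrix.trace_add, Complex.add_re, re_trace_smul_one]
      have e2 : (Z * lt K F t).trace.re + t * (lt K F t).trace.re = (W * lt K F t).trace.re := by
        rw [hWdef, add_mul, Matrix.trace_add, Complex.add_re, smul_mul_assoc, one_mul,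
          Matrix.trace_smul, smul_eq_mul, Complex.re_ofReal_mul]
      have e3 : (W * lt K F t).trace.re = (W * (cfc Real.log (Hm K t + F) +
          cfc Real.log (Hm K t - F))).trace.re - Real.log t * W.trace.re := by
        rw [lt, mul_sub, Matrix.trace_sub, Complex.sub_re, mul_smul_comm, mul_one,
          Matrix.trace_smul, smul_eq_mul, Complex.re_ofReal_mul]
      rw [e2, e3]
      linarith only [e1])
  rw [G.exp_log_eq hA, G.exp_log_eq hB] at key
  obtain ⟨hd0, k1, k2⟩ := key
  set d := P371E.dft K F Z t with hd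
  set H := Hm K t with hHdef
  have hsq : H * H = K * K + (t : ℂ) • (1 : Matrix (Fin N) (Fin N) ℂ) := Hm_sq hKh ht.le
  have c1 : ‖H * F - F * H‖ ≤ 4 * Real.exp l * √d := by
    have e : (H + F) * (H - F) - (H - F) * (H + F) = -((2 : ℝ) • (H * F - F * H)) := by
      rw [two_smul]
      noncomm_ring
    rw [e, norm_neg, norm_smul, Real.norm_of_nonneg (by norm_num)] at k1
    linarith
  have c2 : ‖Z - (K * K - F * F)‖
      ≤ (2 * Real.exp l + 8 * Real.exp (5 * l)) * √d + d + 4 * Real.exp l * √d := by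
    have e : Z - (K * K - F * F) = (Z + (t : ℂ) • (1 : Matrix (Fin N) (Fin N) ℂ)
        - (H + F) * (H - F)) - (H * F - F * H) := by
      have e0 : K * K = H * H - (t : ℂ) • (1 : Matrix (Fin N) (Fin N) ℂ) := by
        rw [hsq]; abel
      rw [e0]
      noncomm_ring
    rw [e]
    exact (norm_sub_le _ _).trans (add_le_add k2 c1)
  have c3 : ‖K * K * F - F * (K * K)‖ ≤ 2 * (|B| + 2) * (4 * Real.exp l * √d) := by
    have e : K * K * F - F * (K * K) = H * (H * F - F * H) + (H * F - F * H) * H := by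
      have e0 : K * K = H * H - (t : ℂ) • (1 : Matrix (Fin N) (Fin N) ℂ) := by
        rw [hsq]; abel
      rw [e0, sub_mul, mul_sub, smul_mul_assoc, mul_smul_comm, one_mul, mul_one]
      noncomm_ring
    have hH' : ‖H‖ ≤ |B| + 2 := hH.trans (by linarith [le_abs_self B])
    have u1 : ‖H * (H * F - F * H)‖ ≤ (|B| + 2) * (4 * Real.exp l * √d) :=
      (norm_mul_le _ _).trans (by gcongr)
    have u2 : ‖(H * F - F * H) * H‖ ≤ (4 * Real.exp l * √d) * (|B| + 2) :=
      (norm_mul_le _ _).trans (by gcongr)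
    rw [e]
    have := norm_add_le (H * (H * F - F * H)) ((H * F - F * H) * H)
    linarith
  have c4 : P371E.eta K F Z ≤ C1 * √d + d := by
    rw [P371E.eta, hC1]
    linarith
  have c5 : s * √d ≤ s ^ 2 + d := by
    have h1 : √d * √d = d := Real.mul_self_sqrt hd0
    nlinarith [sq_nonneg (s - √d), sq_nonneg s]
  have c6 : s * d ≤ s ^ 2 + d := by nlinarith [sq_nonneg s]
  calc s * P371E.eta K F Z ≤ s * (C1 * √d + d) := mul_le_mul_of_nonneg_left c4 hs0.le
    _ = C1 * (s * √d) + s * d := by ring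
    _ ≤ C1 * (s ^ 2 + d) + (s ^ 2 + d) :=
        add_le_add (mul_le_mul_of_nonneg_left c5 hC1p.le) c6
    _ = (C1 + 1) * (s ^ 2 + d) := by ring

end Vale.Agent.P371EP
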