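import Vale.Agent.P371EP.HS

/-!
Stability in the Golden-Thompson and Gibbs inequalities.
-/

namespace Vale.Agent.P371EP

open Matrix Filter Topology Set NormedSpace
open scoped ComplexOrder MatrixOrder Matrix.Norms.L2Operator
open Vale.Agent.P371 Vale.Agent.P371.GII

set_option linter.unusedSectionVars false

variable {n : Type*} [Fintype n] [DecidableEq n]

theorem chain (k : ℕ) : ∀ P Q : Matrix n n ℂ, P.PosSemidef → Q.PosSemidef →
    ‖((P * Q) ^ 2 ^ (k + 1)).trace‖ ≤ ‖((P ^ 2 ^ k * Q ^ 2 ^ k) ^ 2).trace‖ := by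
  induction k with
  | zero => intro P Q _ _; simp
  | succ k ih =>
    intro P Q hP hQ
    have h1 := (G.trace_ineqs (n := n) (k + 1)).1 (P * Q)
    have h2 : (P * Q)ᴴ * (P * Q) = Q * (P * P * Q) := by
      rw [conjTranspose_mul, hP.isHermitian, hQ.isHermitian]
      simp only [Matrix.mul_assoc]
    have h3 : ((Q * (P * P * Q)) ^ 2 ^ (k + 1)).trace
        = ((P * P * (Q * Q)) ^ 2 ^ (k + 1)).trace := by
      rw [G.trace_mul_pow_comm]
      simp only [Matrix.mul_assoc]
    rw [h2, h3] at h1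
    have h4 := ih (P * P) (Q * Q) (G.pos_sq hP) (G.pos_sq hQ)
    have h5 : (P * P) ^ 2 ^ k * (Q * Q) ^ 2 ^ k = P ^ 2 ^ (k + 1) * Q ^ 2 ^ (k + 1) := by
      rw [← pow_two, ← pow_two, ← pow_mul, ← pow_mul, pow_succ', mul_comm]
    rw [h5] at h4
    exact h1.trans ((Complex.re_le_norm _).trans h4)

/-- Golden-Thompson stopped one step before the end. -/
theorem gt_half {X Y : Matrix n n ℂ} (hX : X.IsHermitian) (hY : Y.IsHermitian) :
    (exp (X + Y)).trace.re ≤ ‖((exp ((1 / 2 : ℝ) • X) * exp ((1 / 2 : ℝ) • Y)) ^ 2).trace‖ := by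
  let f : ℝ → Matrix n n ℂ := fun t => exp (t • X) * exp (t • Y)
  have hd : HasDerivWithinAt f (X + Y) (Set.Ici 0) 0 := by
    have h1 := hasDerivAt_exp_smul_const X (0 : ℝ)
    have h2 := hasDerivAt_exp_smul_const Y (0 : ℝ)
    have h3 := (h1.mul h2).hasDerivWithinAt (s := Set.Ici 0)
    have h4 : exp ((0 : ℝ) • X) * X * exp ((0 : ℝ) • Y) + exp ((0 : ℝ) • X) * (exp ((0 : ℝ) • Y) * Y)
        = X + Y := by simp only [zero_smul, exp_zero, one_mul, mul_one]
    rw [← h4]
    exact h3
  rcases isEmpty_or_nonempty n with hn | hn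
  · simp only [trace, Finset.univ_eq_empty, diag_apply, Finset.sum_empty, Complex.zero_re,
      norm_zero, le_refl]
  have hlim := Vale.Agent.P371.Ext.trotter_limit (f := f)
    (by simp only [zero_smul, exp_zero, mul_one, f]) hd zero_le_one
  rw [one_smul] at hlim
  have hlim2 := hlim.comp ((tendsto_pow_atTop_atTop_of_one_lt (r := 2) one_lt_two).comp
    (tendsto_add_atTop_nat 1))
  have hc : Continuous fun M : Matrix n n ℂ => M.trace.re := by fun_prop
  have hlim3 := (hc.tendsto _).comp hlim2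
  refine le_of_tendsto hlim3 (Eventually.of_forall fun k => ?_)
  have hP : ∀ {X : Matrix n n ℂ}, X.IsHermitian →
      (exp ((1 / ((2 ^ (k + 1) : ℕ) : ℝ)) • X)).PosSemidef := fun hX =>
    G.exp_posSemidef (smul_isHermitian hX _)
  have hE : ∀ X : Matrix n n ℂ,
      (exp ((1 / ((2 ^ (k + 1) : ℕ) : ℝ)) • X)) ^ 2 ^ k = exp ((1 / 2 : ℝ) • X) := by
    intro X
    have hN : ((2 ^ k : ℕ)) ≠ 0 := by positivity
    rw [← G.exp_smul_pow (X := (1 / 2 : ℝ) • X) hN, smul_smul]
    congr 3
    push_cast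
    rw [pow_succ]
    field_simp
  have h := chain k _ _ (hP hX) (hP hY)
  rw [hE, hE] at h
  exact (Complex.re_le_norm _).trans h

theorem hs_comm_herm {a b : Matrix n n ℂ} (ha : a.IsHermitian) (hb : b.IsHermitian) :
    hs (a * b - b * a) = 2 * (a * a * (b * b)).trace.re - 2 * ((a * b) ^ 2).trace.re := by
  have e : (a * b - b * a)ᴴ * (a * b - b * a)
      = b * (a * a * b) - b * (a * b * a) - (a * b) ^ 2 + a * (b * b * a) := by
    rw [conjTranspose_sub, conjTranspose_mul, conjTranspose_mul, ha, hb]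
    noncomm_ring
  have t1 : (b * (a * a * b)).trace = (a * a * (b * b)).trace := by
    rw [Matrix.trace_mul_comm]; simp only [Matrix.mul_assoc]
  have t2 : (b * (a * b * a)).trace = ((a * b) ^ 2).trace := by
    rw [Matrix.trace_mul_comm, pow_two]; simp only [Matrix.mul_assoc]
  have t3 : (a * (b * b * a)).trace = (a * a * (b * b)).trace := by
    rw [← Matrix.mul_assoc, Matrix.trace_mul_comm]; simp only [Matrix.mul_assoc]
  rw [hs, e, Matrix.trace_add, Matrix.trace_sub, Matrix.trace_sub, t1, t2, t3]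
  simp only [Complex.add_re, Complex.sub_re]
  ring

theorem exp_half_sq (X : Matrix n n ℂ) :
    exp ((1 / 2 : ℝ) • X) * exp ((1 / 2 : ℝ) • X) = exp X := by
  rw [← Matrix.exp_add_of_commute _ _ (Commute.refl _), ← add_smul]
  norm_num

/-- quantitative Golden-Thompson -/
theorem gt_q {X Y : Matrix n n ℂ} (hX : X.IsHermitian) (hY : Y.IsHermitian) :
    (exp (X + Y)).trace.re + (1 / 2) * hs (exp ((1 / 2 : ℝ) • X) * exp ((1 / 2 : ℝ) • Y)
      - exp ((1 / 2 : ℝ) • Y) * exp ((1 / 2 : ℝ) • X)) ≤ (exp X * exp Y).trace.re := by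
  have h := gt_half hX hY
  have ha := G.exp_posSemidef (smul_isHermitian hX (1 / 2))
  have hb := G.exp_posSemidef (smul_isHermitian hY (1 / 2))
  rw [hs_comm_herm ha.isHermitian hb.isHermitian, exp_half_sq, exp_half_sq]
  set a := exp ((1 / 2 : ℝ) • X)
  set b := exp ((1 / 2 : ℝ) • Y)
  have e : (a * b) ^ 2 = (a * b * aᴴ) * b := by
    rw [ha.isHermitian, pow_two]; simp only [Matrix.mul_assoc]
  have h2 := G.norm_trace_mul_eq (hb.mul_mul_conjTranspose_same a) hb
  rw [← e] at h2
  linarith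

theorem hs_sub_herm {a b : Matrix n n ℂ} (ha : a.IsHermitian) (hb : b.IsHermitian) :
    hs (a - b) = (a * a).trace.re - 2 * (a * b).trace.re + (b * b).trace.re := by
  have e : (a - b)ᴴ * (a - b) = a * a - a * b - b * a + b * b := by
    rw [conjTranspose_sub, ha, hb]
    noncomm_ring
  rw [hs, e, Matrix.trace_add, Matrix.trace_sub, Matrix.trace_sub, Matrix.trace_mul_comm b a]
  simp only [Complex.add_re, Complex.sub_re]
  ring

theorem sqrt_mul_sqrt {W : Matrix n n ℂ} (hW : W.PosDef) :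
    cfc (fun z : ℝ => √z) W * cfc (fun z : ℝ => √z) W = W := by
  rw [← cfc_mul_fun]
  conv_rhs => rw [← cfc_id_fun hW.isHermitian]
  refine cfc_congr fun x hx => ?_
  exact Real.mul_self_sqrt (spectrum_posDef hW hx).le

/-- quantitative Gibbs inequality -/
theorem gibbs_q {W X : Matrix n n ℂ} (hW : W.PosDef) (hX : X.IsHermitian) :
    (W * X).trace.re - (W * cfc Real.log W).trace.re + W.trace.re
      + hs (cfc (fun z : ℝ => √z) W - exp ((1 / 2 : ℝ) • X)) ≤ (exp X).trace.re := by
  have h := G.klein_nonneg hW.isHermitian hX (Finset.univ : Finset (Fin 4))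
    ![fun z => -z, fun z => z * Real.log z, fun z => -2 * z, fun z => 2 * √z]
    ![fun x => x, fun _ => 1, fun _ => 1, fun x => Real.exp (1 / 2 * x)] (by
      intro i j
      have hz := hW.eigenvalues_pos i
      set z := hW.isHermitian.eigenvalues i
      set x := hX.eigenvalues j
      have h1 := Real.add_one_le_exp (1 / 2 * x - 1 / 2 * Real.log z)
      have h2 : Real.exp (1 / 2 * Real.log z) = √z := by
        rw [Real.sqrt_eq_rpow, Real.rpow_def_of_pos hz, mul_comm]
      have h3 : 0 < √z := Real.sqrt_pos.2 hz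
      rw [Real.exp_sub, h2, le_div_iff₀ h3] at h1
      have h4 := mul_le_mul_of_nonneg_left h1 h3.le
      have h5 : √z * √z = z := Real.mul_self_sqrt hz.le
      have h6 : √z * ((1 / 2 * x - 1 / 2 * Real.log z + 1) * √z)
          = (1 / 2 * x - 1 / 2 * Real.log z + 1) * z := by
        rw [mul_left_comm, h5]
      simp only [Fin.sum_univ_four, Matrix.cons_val_zero, Matrix.cons_val_one, Matrix.cons_val]
      nlinarith)
  simp only [Fin.sum_univ_four, Matrix.cons_val_zero, Matrix.cons_val_one, Matrix.cons_val] at h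
  have hWh := hW.isHermitian
  have e3 : cfc (fun z : ℝ => -z) W = -W :=
    (cfc_neg (R := ℝ) (fun z : ℝ => z) W).trans (congrArg Neg.neg (cfc_id_fun hWh))
  have e5 : cfc (fun z : ℝ => z * Real.log z) W = W * cfc Real.log W := by
    rw [cfc_mul_fun (fun z => z) Real.log, cfc_id_fun hWh]
  have e6 : cfc (fun z : ℝ => -2 * z) W = ((-2 : ℝ) : ℂ) • W := by
    rw [cfc_mul_fun (fun _ => -2) (fun z => z), cfc_id_fun hWh, cfc_const_fun hWh, smul_mul_assoc,
      one_mul]
  have e7 : cfc (fun z : ℝ => 2 * √z) W = ((2 : ℝ) : ℂ) • cfc (fun z : ℝ => √z) W := by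
    rw [cfc_mul_fun (fun _ => 2) (fun z => √z), cfc_const_fun hWh, smul_mul_assoc, one_mul]
  rw [e3, e5, e6, e7, cfc_id_fun hX, cfc_one_fun hX, ← exp_smul_eq_cfc hX] at h
  simp only [Matrix.mul_one, Matrix.neg_mul, Matrix.trace_neg, Complex.neg_re, smul_mul_assoc,
    Matrix.trace_smul, smul_eq_mul, Complex.re_ofReal_mul] at h
  rw [hs_sub_herm (G.cfc_isHermitian _ _) (G.exp_posSemidef (smul_isHermitian hX _)).isHermitian,
    sqrt_mul_sqrt hW, exp_half_sq]
  linarith

/-- Stability of the combined Gibbs and Golden-Thompson inequality. -/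
theorem gt_stab {W X Y : Matrix n n ℂ} (hW : W.PosDef) (hX : X.IsHermitian) (hY : Y.IsHermitian)
    {l d : ℝ} (hXl : ‖X‖ ≤ l) (hYl : ‖Y‖ ≤ l)
    (hd : (exp X * exp Y).trace.re - ((W * (X + Y)).trace.re - (W * cfc Real.log W).trace.re
      + W.trace.re) ≤ d) :
    0 ≤ d ∧ ‖exp X * exp Y - exp Y * exp X‖ ≤ 8 * Real.exp l * √d ∧
      ‖W - exp X * exp Y‖ ≤ (2 * Real.exp l + 8 * Real.exp (5 * l)) * √d + d := by
  have hl0 : 0 ≤ l := (norm_nonneg _).trans hXl
  have g1 := gt_q hX hY
  have g2 := gibbs_q hW (hX.add hY)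
  set a := exp ((1 / 2 : ℝ) • X) with ha
  set b := exp ((1 / 2 : ℝ) • Y) with hb
  set E := exp ((1 / 2 : ℝ) • (X + Y)) with hE
  set w := cfc (fun z : ℝ => √z) W with hw
  have p1 := hs_nonneg (a * b - b * a)
  have p2 := hs_nonneg (w - E)
  have hd0 : 0 ≤ d := by linarith
  have q1 : hs (a * b - b * a) ≤ 4 * d := by linarith
  have q2 : hs (w - E) ≤ d := by linarith
  have s1 : √(hs (a * b - b * a)) ≤ 2 * √d := by
    refine (Real.sqrt_le_sqrt q1).trans (le_of_eq ?_)
    rw [Real.sqrt_mul (by norm_num), show (4 : ℝ) = 2 ^ 2 by norm_num, Real.sqrt_sq (by norm_num)]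
  have n1 : ‖a * b - b * a‖ ≤ 2 * √d := (norm_le_sqrt_hs _).trans s1
  have n2 : ‖w - E‖ ≤ √d := (norm_le_sqrt_hs _).trans (Real.sqrt_le_sqrt q2)
  have na : ‖a‖ ≤ Real.exp (1 / 2 * l) := norm_exp_smul_le hX (by norm_num) hXl
  have nb : ‖b‖ ≤ Real.exp (1 / 2 * l) := norm_exp_smul_le hY (by norm_num) hYl
  have nE : ‖E‖ ≤ Real.exp l := by
    have := norm_exp_smul_le (hX.add hY) (s := 1 / 2) (l := 2 * l) (by norm_num)
      ((norm_add_le _ _).trans (by linarith))
    rwa [show 1 / 2 * (2 * l) = l by ring] at this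
  have ee : Real.exp (1 / 2 * l) * Real.exp (1 / 2 * l) = Real.exp l := by
    rw [← Real.exp_add]; congr 1; ring
  have hsd := Real.sqrt_nonneg d
  refine ⟨hd0, ?_, ?_⟩
  · have e : exp X * exp Y - exp Y * exp X = a * (a * b - b * a) * b + a * (b * (a * b - b * a))
        + (a * b - b * a) * b * a + b * (a * b - b * a) * a := by
      rw [← exp_half_sq X, ← exp_half_sq Y, ← ha, ← hb]
      noncomm_ring
    have t : ∀ u v c : Matrix n n ℂ, ‖u‖ ≤ Real.exp (1 / 2 * l) → ‖v‖ ≤ Real.exp (1 / 2 * l) →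
        ‖c‖ ≤ 2 * √d → ‖u‖ * ‖v‖ * ‖c‖ ≤ 2 * Real.exp l * √d := by
      intro u v c hu hv hc
      calc _ ≤ Real.exp (1 / 2 * l) * Real.exp (1 / 2 * l) * (2 * √d) := by gcongr
        _ = _ := by rw [ee]; ring
    have t1 : ‖a * (a * b - b * a) * b‖ ≤ 2 * Real.exp l * √d := by
      refine le_trans ?_ (t a b _ na nb n1)
      refine (norm_mul_le _ _).trans ((mul_le_mul_of_nonneg_right (norm_mul_le _ _)
        (norm_nonneg _)).trans (le_of_eq (by ring)))
    have t2 : ‖a * (b * (a * b - b * a))‖ ≤ 2 * Real.exp l * √d := by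
      refine le_trans ?_ (t a b _ na nb n1)
      refine (norm_mul_le _ _).trans ((mul_le_mul_of_nonneg_left (norm_mul_le _ _)
        (norm_nonneg _)).trans (le_of_eq (by ring)))
    have t3 : ‖(a * b - b * a) * b * a‖ ≤ 2 * Real.exp l * √d := by
      refine le_trans ?_ (t a b _ na nb n1)
      refine (norm_mul_le _ _).trans ((mul_le_mul_of_nonneg_right (norm_mul_le _ _)
        (norm_nonneg _)).trans (le_of_eq (by ring)))
    have t4 : ‖b * (a * b - b * a) * a‖ ≤ 2 * Real.exp l * √d := by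
      refine le_trans ?_ (t a b _ na nb n1)
      refine (norm_mul_le _ _).trans ((mul_le_mul_of_nonneg_right (norm_mul_le _ _)
        (norm_nonneg _)).trans (le_of_eq (by ring)))
    rw [e]
    have := norm_add₄_le (a := a * (a * b - b * a) * b) (b := a * (b * (a * b - b * a)))
      (c := (a * b - b * a) * b * a) (d := b * (a * b - b * a) * a)
    linarith
  · have lip : ∀ {X : Matrix n n ℂ} (hX : X.IsHermitian), ‖X‖ ≤ l → ∀ M : Matrix n n ℂ,
        hs (X * M - M * X) ≤ (2 * Real.exp (1 / 2 * l)) ^ 2 *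
          hs (exp ((1 / 2 : ℝ) • X) * M - M * exp ((1 / 2 : ℝ) • X)) := by
      intro X hX hXl M
      have h := hs_comm_le hX (fun x => x) (fun x => Real.exp (1 / 2 * x))
        (L := 2 * Real.exp (1 / 2 * l)) (fun i j => ?_) M
      · rwa [← exp_smul_eq_cfc hX, cfc_id_fun hX] at h
      · have hi := abs_le.1 ((abs_eigenvalues_le hX i).trans hXl)
        have hj := abs_le.1 ((abs_eigenvalues_le hX j).trans hXl)
        have h1 := abs_sub_le_exp (x := 1 / 2 * hX.eigenvalues i) (y := 1 / 2 * hX.eigenvalues j)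
          (l := 1 / 2 * l) (by linarith [hi.1]) (by linarith [hj.1])
        rw [← mul_sub, abs_mul, abs_of_pos (by norm_num : (0 : ℝ) < 1 / 2)] at h1
        linarith
    have c1 := lip hX hXl Y
    have c2 := lip hY hYl a
    rw [← ha] at c1
    rw [← hb, hs_sub_comm (Y * a), hs_sub_comm (b * a)] at c2
    have c3 : hs (X * Y - Y * X) ≤ (4 * Real.exp l) ^ 2 * hs (a * b - b * a) := by
      refine c1.trans ((mul_le_mul_of_nonneg_left c2 (by positivity)).trans (le_of_eq ?_))
      rw [← ee]; ring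
    have c4 : √(hs (X * Y - Y * X)) ≤ 4 * Real.exp l * (2 * √d) := by
      refine (Real.sqrt_le_sqrt c3).trans ?_
      rw [Real.sqrt_mul (by positivity), Real.sqrt_sq (by positivity)]
      exact mul_le_mul_of_nonneg_left s1 (by positivity)
    have c5 : ‖exp X * exp Y - exp (X + Y)‖ ≤ 8 * Real.exp (5 * l) * √d := by
      refine (norm_exp_mul_sub_le hX hY hXl hYl).trans
        ((mul_le_mul_of_nonneg_left c4 (Real.exp_pos _).le).trans (le_of_eq ?_))
      have : Real.exp (5 * l) = Real.exp (4 * l) * Real.exp l := by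
        rw [← Real.exp_add]; congr 1; ring
      rw [this]; ring
    have c6 : ‖W - exp (X + Y)‖ ≤ 2 * Real.exp l * √d + d := by
      have e : W - exp (X + Y) = (w - E) * (w - E) + E * (w - E) + (w - E) * E := by
        rw [← exp_half_sq (X + Y), ← hE, ← sqrt_mul_sqrt hW, ← hw]
        noncomm_ring
      have u1 : ‖(w - E) * (w - E)‖ ≤ d := by
        refine (norm_mul_le _ _).trans ?_
        calc _ ≤ √d * √d := by gcongr
          _ = d := Real.mul_self_sqrt hd0
      have u2 : ‖E * (w - E)‖ ≤ Real.exp l * √d := (norm_mul_le _ _).trans (by gcongr)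
      have u3 : ‖(w - E) * E‖ ≤ √d * Real.exp l := (norm_mul_le _ _).trans (by gcongr)
      rw [e]
      have := norm_add₃_le (a := (w - E) * (w - E)) (b := E * (w - E)) (c := (w - E) * E)
      linarith
    have e : W - exp X * exp Y = (W - exp (X + Y)) - (exp X * exp Y - exp (X + Y)) := by abel
    rw [e]
    have := norm_sub_le (W - exp (X + Y)) (exp X * exp Y - exp (X + Y))
    linarith

end Vale.Agent.P371EP
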